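import Vale.Agent.P011.E6W.H7.GoodQ
import Vale.Agent.P011.E6W.H7.Model
import Vale.Agent.P011.E6W.H7.RealE
import Vale.Agent.P011.E6H.Hyp

/-!
Change of the coordinates of the octonion algebra: the absence of proper subgroups of finite index
in the outer group of type `E₆` does not depend on the coordinates; when the octonion algebra does
not remain a division algebra over the sextic field, it contains the quadratic extension.
-/

open NumberField IsDedekindDomain

namespace Vale.Agent.P011.H553.Rl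

open Vale.Agent.P011.MPQ Vale.Agent.P011.Arith Vale.Agent.P011.D4 Vale.Agent.P011.D4.Oct
  Vale.Agent.P011.E6 Vale.Agent.P011.E6O
open Vale.Agent.P011.E6H (IsSextic NoIndex OpenAt)
open Vale.Agent.P011.E6W.H7 (exists_good_at exists_pure_sq exists_real_sextic mem_of_mem_res)

section iff

variable {k E : Type} [Field k] [Field E] [Algebra k E] {ρ σ : E ≃ₐ[k] E} {lam : Eˣ}
  {g : Fin 3 → Eˣ} {a b c : kˣ}

/-- There is no proper subgroup of finite index if and only if the finite residual is
everything. -/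
theorem noIndex_iff : NoIndex (E6H.GHer σ g a b c ⊓ E6H.GPh ρ lam a b c) ↔
    ∀ φ ∈ GO ρ σ lam g a b c, φ ∈ Res ρ σ lam g a b c := by
  rw [E6H.gpo_eq]
  constructor
  · intro h φ hφ
    refine ⟨⟨φ, hφ⟩, ?_, rfl⟩
    rw [SetLike.mem_coe, Subgroup.mem_sInf]
    intro N hN
    have h0 : N.index ≠ 0 := hN
    have hi : (N.map (toGPO (ρ := ρ) (σ := σ) (lam := lam) (g := g) (a := a) (b := b)
        (c := c))).index ≠ 0 := by
      rw [Subgroup.index_map, MonoidHom.range_eq_top.2 toGPO_surjective, Subgroup.index_top,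
        mul_one]
      exact fun h1 => h0 (by
        have h2 := Subgroup.index_dvd_of_le (le_sup_left : N ≤ N ⊔ (toGPO (ρ := ρ) (σ := σ)
          (lam := lam) (g := g) (a := a) (b := b) (c := c)).ker)
        rw [h1] at h2
        exact Nat.eq_zero_of_zero_dvd h2)
    have h1 := h _ hi
    have h2 : toGPO (⟨φ, hφ⟩ : GO ρ σ lam g a b c) ∈ N.map (toGPO (ρ := ρ) (σ := σ) (lam := lam)
        (g := g) (a := a) (b := b) (c := c)) := by
      rw [h1]
      exact Subgroup.mem_top _
    obtain ⟨ψ, hψ, e⟩ := h2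
    have e2 : ψ = ⟨φ, hφ⟩ := by
      apply Subtype.ext
      apply LinearEquiv.ext
      intro x
      exact congrArg (fun f => f.1 x) e
    rwa [← e2]
  · intro h
    refine gpo_of fun N hN => ?_
    rw [eq_top_iff]
    intro x _
    exact mem_of_mem_res hN (h x.1 x.2)

end iff

section model

variable {k E : Type} [Field k] [NumberField k] [Field E] [NumberField E] [Algebra k E]
  {ρ σ : E ≃ₐ[k] E} {lam : Eˣ} {g : Fin 3 → Eˣ} {kap a b c : kˣ}

/-- Change of the quaternion subalgebra. -/
theorem noIndex_of_model {a' b' c' : kˣ} {i j l : Oct a b c} (ht : Trip a' b' c' i j l)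
    (h : NoIndex (E6H.GHer σ g a' b' c' ⊓ E6H.GPh ρ lam a' b' c')) :
    NoIndex (E6H.GHer σ g a b c ⊓ E6H.GPh ρ lam a b c) := by
  rw [noIndex_iff] at h ⊢
  intro φ hφ
  let Ψ : AlbL E a' b' c' ≃ₗ[E] AlbL E a b c := tripA E ht
  obtain ⟨φ', hφ'⟩ : ∃ φ', φ' = (Ψ.trans φ).trans Ψ.symm := ⟨_, rfl⟩
  have e : (Ψ.symm.trans φ').trans Ψ = φ := by
    apply LinearEquiv.ext
    intro x
    rw [hφ']
    change Ψ (Ψ.symm (φ (Ψ (Ψ.symm x)))) = φ x
    rw [LinearEquiv.apply_symm_apply, LinearEquiv.apply_symm_apply]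
  obtain ⟨e1, e2⟩ := trip_Res' (ρ := ρ) (σ := σ) (lam := lam) (γ := g) ht
    (Ψ := Ψ) (tripA_apply ht) (φ := φ')
  rw [e] at e1 e2
  exact e2.1 (h φ' (e1.2 hφ))

/-- An octonion algebra which is definite at a real place is a division algebra. -/
theorem division_of_dfn {F : Type} [Field F] {a b c : Fˣ} {w : F →+* ℝ} (h : Dfn w a b c) :
    Division a b c := by
  intro x hx
  by_contra h0
  have h1 := h.defAt x h0
  rw [hx, map_zero] at h1
  exact lt_irrefl _ h1

omit [NumberField k] in
/-- The octonion algebra remains a division algebra after a change of coordinates. -/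
theorem division_trip' [CharZero k] {a' b' c' : kˣ} {i j l : Oct a b c} (ht : Trip a' b' c' i j l)
    (h : Division a b c) : Division a' b' c' := by
  intro x hx
  obtain ⟨Φ, -, -, -, hno⟩ := exists_emb ht
  have h1 := h (Φ x) (by rw [hno, hx])
  exact Φ.injective (h1.trans (map_zero _).symm)

omit [NumberField E] in
/-- If the octonion algebra is not a division algebra over the sextic field, the parameter is
negative at the real places at which it is definite. -/
theorem neg_of_not (hS : IsSextic ρ σ kap) (h : ¬ Division (up E a) (up E b) (up E c))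
    {φ : k →+* ℝ} (hd : Dfn φ a b c) : φ kap < 0 := by
  by_contra hcon
  have h1 : 0 < φ kap := lt_of_le_of_ne (not_lt.1 hcon) ((map_ne_zero φ).2 kap.ne_zero).symm
  obtain ⟨w, rfl⟩ := exists_real_sextic hS h1
  exact h (division_of_dfn (w := w) hd)

/-- When the octonion algebra does not remain a division algebra over the sextic field, it has
coordinates which begin with `kap`. -/
theorem exists_kap (hS : IsSextic ρ σ kap) (hC : Division a b c)
    (hE : ¬ Division (up E a) (up E b) (up E c)) :
    ∃ b' c' : kˣ, Division kap b' c' ∧ ∀ (lam : Eˣ) (g : Fin 3 → Eˣ),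
      NoIndex (E6H.GHer σ g kap b' c' ⊓ E6H.GPh ρ lam kap b' c') →
        NoIndex (E6H.GHer σ g a b c ⊓ E6H.GPh ρ lam a b c) := by
  obtain ⟨a', b', c', i, j, l, ht, -, h1, h2⟩ := exists_good_at hC
    (Set.finite_empty (α := HeightOneSpectrum (𝓞 k)))
  have hC' : Division a' b' c' := division_trip' ht hC
  have hd : ∀ φ : k →+* ℝ, Dfn φ a' b' c' → Dfn φ a b c := fun φ h => by
    by_contra hn
    exact absurd h.1 (not_lt.2 (h2 φ hn).le)
  obtain ⟨i', hi, hi1, hi0, hin, -⟩ := exists_pure_sq a' b' c' kap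
    (fun φ h => neg_of_not hS hE (hd φ h)) (fun φ h3 _ h5 => by
      have h6 : Dfn φ a b c := by
        by_contra hn
        exact absurd h3 (not_lt.2 (h2 φ hn).le)
      exact absurd (h1 φ h6).2.2 (not_lt.2 h5.le))
  have pure_of : ∀ w : Oct a' b' c', dot w 1 = 0 → star w = -w := by
    intro w hw
    apply star_neg_of_pure
    rw [bil_eq_dot, hw, mul_zero]
  obtain ⟨j0, hj0, hj⟩ := exists_perp ![1, i', 1, 1, 1, 1, 1]
  obtain ⟨l0, hl0, hl⟩ := exists_perp ![1, i', j0, i' * j0, 1, 1, 1]
  have hj1 : dot j0 1 = 0 := hj 0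
  have hji : dot j0 i' = 0 := hj 1
  have hl1 : dot l0 1 = 0 := hl 0
  have hli : dot l0 i' = 0 := hl 1
  have hlj : dot l0 j0 = 0 := hl 2
  have hlij : dot l0 (i' * j0) = 0 := hl 3
  obtain ⟨a1, b1, c1, ht'⟩ := exists_trip hC' hi hi0 (pure_of j0 hj1) hj0 (pure_of l0 hl1) hl0
    (by rw [dot_comm, hji]) (by rw [dot_comm, hli]) (by rw [dot_comm, hlj])
    (by rw [dot_comm, hlij])
  have ha1 : a1 = kap := by
    apply Units.ext
    have h4 := ht'.ii
    rw [norm_eq_of_sq hi, hin, neg_neg] at h4
    exact (smul_one_inj h4).symm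
  subst ha1
  exact ⟨b1, c1, division_trip' ht' hC', fun lam g h =>
    noIndex_of_model ht (noIndex_of_model ht' h)⟩

end model

end Vale.Agent.P011.H553.Rl
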